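import Vale.Agent.P011.H872.GF.BallNewt
import Vale.Agent.P011.H872.GF.PlaceHom
import Vale.Agent.P011.H738.C2.Key

/-!
# Characteristic two: the good field of the doubling step, from the local conditions
-/

open Module Polynomial

set_option linter.unusedSectionVars false

namespace Vale.Agent.P011.H856.GE

open Vale.Agent.P011.H738 Vale.Agent.P011.H271
open Vale.Agent.P011.H271.S3 (Ab)
open Vale.Agent.P011.H698 (Sm Bd)
open Vale.Agent.P011.H961.C2 (LN2)
open Vale.Agent.P011.H738.C2 (GoodE)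

/-- The symmetric elements `y` with `y t = (t + 1) y`. -/
def W2 {A : Type} [Ring A] [StarRing A] (t : A) : Set A := {y | star y = y ∧ y * t = (t + 1) * y}

/-- The local condition at `v` with radius `ε` and centre `jv`. -/
def BallAt2 {k A : Type} [Field k] [Ring A] [StarRing A] [Algebra k A] {N : ℕ}
    (B : Basis (Fin N) k A) (v : Place k) (m : ℕ) (t : A) (c : Fin m → k) (jv : A) (ε : ℝ) :
    Prop :=
  ∀ y ∈ W2 t, Sm B v ε (y - jv) → IsUnit y ∧ (minpoly k (y * y)).natDegree = m ∧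
    ∀ i, i ≤ m → v.abv ((minpoly k (y * y)).coeff i) =
      v.abv ((∏ i, (X - C (c i ^ 2)) : k[X]).coeff i)

section root

/-- The roots are local norms. -/
theorem root_ln {k F : Type} [Field k] [Field F] [Algebra k F]
    (h2 : (2 : k) = 0) {v : Place k} {m : ℕ} {c : Fin m → k}
    (hc0 : ∀ i, c i ≠ 0) (hc : ∀ i j, i < j → v.abv (c i) < v.abv (c j)) {μ : k[X]}
    (hμ : μ.Monic) (hdeg : μ.natDegree = m) (hco : ∀ i, i ≤ m → v.abv (μ.coeff i) =
      v.abv ((∏ i, (X - C (c i ^ 2)) : k[X]).coeff i)) {ν : k} (hν : v.abv ν ≤ 1)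
    {β : F} (hβ : aeval β μ = 0) {ω : Place F} (hω : Ab ω v) :
    LN2 ω (algebraMap k F ν) β := by
  obtain ⟨e, he, hωe⟩ := hω
  let f : k →+* ω.comp := (algebraMap F ω.comp).comp (algebraMap k F)
  have hf : ∀ x, ‖f x‖ = v.abv x ^ e := fun x => by
    change ‖algebraMap F ω.comp (algebraMap k F x)‖ = _
    rw [norm_alg, hωe]
  obtain ⟨r, h1, -, h3⟩ := H872.GF.newt_data hc0 hc hμ hdeg hco f he hf
  have h4 : (μ.map f).eval (algebraMap F ω.comp β) = 0 := by
    rw [← Polynomial.map_map, eval_map, eval₂_hom, eval_map_algebraMap, hβ, map_zero]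
  rw [h1, eval_prod, Finset.prod_eq_zero_iff] at h4
  obtain ⟨i, -, h5⟩ := h4
  rw [eval_sub, eval_X, eval_C, sub_eq_zero] at h5
  have h6 : ω.abv β = ω.abv (algebraMap k F (c i)) ^ 2 := by
    have h7 := h3 i
    rw [← h5, norm_alg] at h7
    rw [h7]
    change ‖algebraMap F ω.comp (algebraMap k F (c i))‖ ^ 2 = _
    rw [norm_alg]
  obtain ⟨x, hx⟩ : ∃ x : F, x = algebraMap k F (c i) := ⟨_, rfl⟩
  have hx0 : x ≠ 0 := by
    rw [hx]
    exact (_root_.map_ne_zero _).mpr (hc0 i)
  rw [← hx] at h6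
  have h2F : (2 : F) = 0 := by
    rw [← map_ofNat (algebraMap k F) 2, h2, map_zero]
  have h8 : ω.abv (β / x ^ 2) = 1 := by
    have h9 : ω.abv x ≠ 0 := (ω.abv.pos hx0).ne'
    rw [map_div₀, map_pow, h6, div_self (pow_ne_zero _ h9)]
  have h10 : ω.abv (algebraMap k F ν) ≤ 1 := by
    rw [hωe]
    exact Real.rpow_le_one (v.abv.nonneg _) hν he.le
  obtain ⟨p, q, hpq⟩ := H961.C2.ln_unit h2F h10 h8
  refine ⟨p * algebraMap F ω.comp x, q * algebraMap F ω.comp x, ?_⟩
  have hx0' : algebraMap F ω.comp x ≠ 0 := (_root_.map_ne_zero _).mpr hx0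
  rw [map_div₀, map_pow, eq_div_iff (pow_ne_zero 2 hx0')] at hpq
  linear_combination hpq

end root

variable {k A : Type} [Field k] [Ring A] [StarRing A] [Algebra k A] {m N : ℕ}

/-- The minimal polynomial of an element of a division subring. -/
theorem irreducible_of {t z : A} (hC : ∀ x : A, x * t = t * x → x ≠ 0 → IsUnit x)
    (hz : z * t = t * z) (hi : IsIntegral k z) (hd : 0 < (minpoly k z).natDegree) :
    Irreducible (minpoly k z) := by
  have hcm : ∀ p : k[X], aeval z p * t = t * aeval z p := fun p => by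
    induction p using Polynomial.induction_on' with
    | add p q hp hq => rw [map_add, add_mul, mul_add, hp, hq]
    | monomial i c =>
      rw [aeval_monomial, mul_assoc, (show Commute z t from hz).pow_left i |>.eq, ← mul_assoc,
        Algebra.commutes c t, mul_assoc]
  have h0 : minpoly k z ≠ 0 := minpoly.ne_zero hi
  refine irreducible_iff.mpr ⟨fun h => ?_, fun p q hpq => ?_⟩
  · rw [natDegree_eq_zero_of_isUnit h] at hd
    exact lt_irrefl _ hd
  · have hpq' : aeval z p * aeval z q = 0 := by rw [← map_mul, ← hpq, minpoly.aeval]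
    by_cases hp : aeval z p = 0
    · right
      obtain ⟨r, hr⟩ := minpoly.dvd k z hp
      rw [hr, mul_assoc] at hpq
      have h3 : minpoly k z * (r * q) = minpoly k z * 1 := by rw [mul_one]; exact hpq.symm
      have h4 := mul_left_cancel₀ h0 h3
      exact IsUnit.of_mul_eq_one r (by rw [mul_comm]; exact h4)
    · left
      obtain ⟨u, hu⟩ := hC _ (hcm p) hp
      rw [← hu] at hpq'
      have hq : aeval z q = 0 := by
        have := congrArg (fun x => (↑u⁻¹ : A) * x) hpq'
        simpa [← mul_assoc] using this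
      obtain ⟨r, hr⟩ := minpoly.dvd k z hq
      rw [hr, mul_left_comm] at hpq
      have h3 : minpoly k z * (p * r) = minpoly k z * 1 := by rw [mul_one]; exact hpq.symm
      have h4 := mul_left_cancel₀ h0 h3
      exact IsUnit.of_mul_eq_one r h4

/-- A linear projection on the space of the `y`. -/
theorem exists_proj2 (hst : ∀ (c : k) (x : A), star (c • x) = c • star x) (t : A) :
    ∃ pr : A →ₗ[k] A, (∀ x, pr x ∈ W2 t) ∧ ∀ j ∈ W2 t, pr j = j := by
  let M : Submodule k A :=
    { carrier := W2 t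
      add_mem' := fun {x y} hx hy => ⟨by rw [star_add, hx.1, hy.1], by
        rw [add_mul, mul_add, hx.2, hy.2]⟩
      zero_mem' := ⟨star_zero _, by rw [zero_mul, mul_zero]⟩
      smul_mem' := fun c x hx => ⟨by rw [hst, hx.1], by
        rw [smul_mul_assoc, mul_smul_comm, hx.2]⟩ }
  obtain ⟨r, hr⟩ := M.subtype.exists_leftInverse_of_injective
    (LinearMap.ker_eq_bot.mpr M.subtype_injective)
  refine ⟨M.subtype.comp r, fun x => (r x).2, fun j hj => ?_⟩
  have h1 := LinearMap.congr_fun hr (⟨j, hj⟩ : M)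
  exact congrArg Subtype.val h1

/-- **The good field**, from the local conditions. -/
theorem goodE_of_local [GFF k] (h2 : (2 : k) = 0) (hm : 0 < m) (B : Basis (Fin N) k A) {t : A}
    (hst : ∀ (c : k) (x : A), star (c • x) = c • star x)
    (hC : ∀ x : A, x * t = t * x → x ≠ 0 → IsUnit x)
    (hloc : ∃ S : Set (Place k), S.Finite ∧ ∀ v ∉ S, ∃ (c : Fin m → k) (jv : A) (ε : ℝ),
      (∀ i, c i ≠ 0) ∧ (∀ i j, i < j → v.abv (c i) < v.abv (c j)) ∧ jv ∈ W2 t ∧ 0 < ε ∧
      BallAt2 B v m t c jv ε) (ν : k) :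
    GoodE k ν t m := by
  classical
  obtain ⟨S0, hS0, hloc⟩ := hloc
  have hfd : FiniteDimensional k A := Module.Finite.of_basis B
  have hνf : {v : Place k | ¬ v.abv ν ≤ 1}.Finite := by
    by_cases hν0 : ν = 0
    · refine Set.Finite.subset Set.finite_empty fun v hv => hv ?_
      rw [hν0, map_zero]
      exact zero_le_one
    · refine (place_finite hν0).subset fun v hv => ?_
      rw [Set.mem_ofPred_eq] at hv ⊢
      exact fun h => hv h.le
  have hSf : (S0 ∪ {v : Place k | ¬ v.abv ν ≤ 1}).Finite := hS0.union hνf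
  refine ⟨_, hSf, fun V hV hVS => ?_⟩
  obtain ⟨v1, hv1, -⟩ := H872.GF.exists_place_hom (M := k) hSf
  choose! c jv ε hc0 hc hjv hε hball using hloc
  obtain ⟨V', hV'd⟩ : ∃ V' : Finset (Place k), V' = insert v1 hV.toFinset := ⟨_, rfl⟩
  have hV' : ∀ v ∈ V', v ∉ S0 ∪ {v : Place k | ¬ v.abv ν ≤ 1} := by
    intro v hv
    rw [hV'd, Finset.mem_insert] at hv
    rcases hv with rfl | hv
    · exact hv1
    · exact Set.disjoint_left.mp hVS (hV.mem_toFinset.mp hv)
  have hV'1 : ∀ v ∈ V', v ∉ S0 := fun v hv h => hV' v hv (Or.inl h)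
  obtain ⟨pr, hpr1, hpr2⟩ := exists_proj2 hst t
  obtain ⟨C, hC1, -, hCb⟩ := H698.lin_bd B B pr
  -- weak approximation
  obtain ⟨δ, hδ, hδle⟩ := H698.exists_pos_le (fun v : V' => ε (v : Place k) / (2 * C v))
    fun v => div_pos (hε _ (hV'1 _ v.2)) (by have := hC1 v; linarith)
  choose y hy using fun i => H973.PF.weakP V' (fun v => B.repr (jv v) i) hδ
  obtain ⟨x, hx⟩ : ∃ x : A, x = ∑ i, y i • B i := ⟨_, rfl⟩
  have hxr : ∀ i, B.repr x i = y i := fun i => by
    rw [hx, B.repr_sum_self]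
  have hxv : ∀ v ∈ V', Sm B v (ε v) (pr x - jv v) := by
    intro v hv
    have h1 : Bd B v δ (x - jv v) := fun i => by
      rw [map_sub, Finsupp.sub_apply, hxr]
      exact (hy i v hv).le
    have h2 := hCb v δ _ hδ.le h1
    rw [map_sub, hpr2 _ (hjv v (hV'1 v hv))] at h2
    refine h2.sm ?_
    have h3 := hδle ⟨v, hv⟩
    have h4 : 0 < C v := zero_lt_one.trans_le (hC1 v)
    have h5 := hε v (hV'1 v hv)
    change δ ≤ ε v / (2 * C v) at h3
    rw [le_div_iff₀ (by positivity)] at h3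
    linarith
  have hspec := fun v (hv : v ∈ V') => hball v (hV'1 v hv) (pr x) (hpr1 x) (hxv v hv)
  have hmem : v1 ∈ V' := by
    rw [hV'd]
    exact Finset.mem_insert_self _ _
  have hVV : ∀ v ∈ V, v ∈ V' := fun v hv => by
    rw [hV'd]
    exact Finset.mem_insert_of_mem (hV.mem_toFinset.mpr hv)
  have hint : IsIntegral k (pr x * pr x) := IsIntegral.of_finite k _
  have hmon := minpoly.monic hint
  obtain ⟨h1, h3, h4⟩ := hspec v1 hmem
  have hyt := (hpr1 x).2
  have hcm : pr x * pr x * t = t * (pr x * pr x) := by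
    have h22 : (1 : A) + 1 = 0 := by
      rw [one_add_one_eq_two, ← map_ofNat (algebraMap k A) 2, h2, map_zero]
    calc pr x * pr x * t = pr x * ((t + 1) * pr x) := by rw [mul_assoc, hyt]
      _ = (pr x * t + pr x) * pr x := by rw [← mul_assoc, mul_add, mul_one]
      _ = ((t + 1) + 1) * (pr x * pr x) := by
        rw [hyt, ← mul_assoc, add_mul (t + 1) 1 (pr x), one_mul]
      _ = t * (pr x * pr x) := by rw [add_assoc, h22, add_zero]
  refine ⟨pr x, h1, (hpr1 x).1, hyt, irreducible_of hC hcm hint (by rw [h3]; exact hm), h3,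
    (H872.GF.sep_splits (hc0 v1 (hV'1 v1 hmem)) (hc v1 (hV'1 v1 hmem)) hmon h3 h4).1,
    fun v hv => ?_, fun F _ _ β hβ v hv ω hω => ?_⟩
  · have hv' := hVV v hv
    exact (H872.GF.sep_splits (hc0 v (hV'1 v hv')) (hc v (hV'1 v hv')) hmon h3
      (hspec v hv').2.2).2
  · have hv' := hVV v hv
    have hν : v.abv ν ≤ 1 := by
      by_contra hcon
      exact hV' v hv' (Or.inr hcon)
    exact root_ln h2 (hc0 v (hV'1 v hv')) (hc v (hV'1 v hv')) hmon h3 (hspec v hv').2.2 hν hβ hω

end Vale.Agent.P011.H856.GE
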